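/-!
# Row 62 guide (read before filling a file)

Fill your file in place (helper files `R62/<Name>Aux*.lean` welcome). Never change a statement
without telling helper12; if a statement looks false, report at once (error terms can usually be
enlarged). You may use every stub of `Upd, GenM, GenW, Mono, Der, Pt*` right away.

Notation: m = |S|, f = F u v, D_a = F a a, r_a = rr F a = (F²)_aa, x_a = r_a - 1, ϱ_a = vr = 1+r_a,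
c_a = (F⁴)_aa, o = |(F²)_uv|, p_a = pd = |D_a|+1/m, φ = ph = |f|+1/m, P = Σϱ², P2 = Σp² ≤ 4 TD,
X = X2. m = K^μ, exponents: ϱ = min 0 (μ-6700), τ (of T4) = 20004-μ (μ ≥ 6700) or 2μ-96 (μ ≤ 6700),
L ~ τ/4, R ~ 2525+ϱ/2, T2 ~ 1+μ+ϱ, k2 ~ 6699+ϱ, kt ~ 3350+ϱ, TX ~ 13403-μ, TR ~ 6713+2ϱ,
TR4 ~ 10100+2ϱ, TD ~ 450+ϱ, T22 ~ max 10004 (19860-μ) ≥ τ - 144 in phase I. Phases: I μ > 7195,
II 6710 < μ ≤ 7195, III 3340 < μ ≤ 6710 (IIIa μ ≥ 6700, IIIb μ ≤ 6700). ε = eps (K^-1150 in I,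
K^-800 else), γ = K^600, Γ² = Gam2 (K^1201 in I, K^36 else).

## Pointwise files (Pt*)
`Loc.upd_eq`: F' = F + n1 yyᵀ + n1' zzᵀ + n2 (yzᵀ+zyᵀ) - σ(e_u e_vᵀ+e_v e_uᵀ) - σ/(m-2) (e_u+e_v)(e_u+e_v)ᵀ,
y = F e_u - σ P e_v, z = F e_v - σ P e_u, e_i = P e_i; F P = F; n1 = D_v + O(pe), |n1| ≤ 2p_v,
n2 = σ + O(ph0). So tr(M · a bᵀ) = bᵀ M a reduces everything to entries of words in F, G at
(u,u),(u,v),(v,v) (e.g. yᵀ M z for M = F^j expands into 4 entries; e_uᵀ e_v = -1/m, e_uᵀ e_u = 1-1/m).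
Strategy: write n2 = σ + δ, n1 = D_v + δ1; state a pure real-number lemma in the scalar entries,
subtract the main term (`ring_nf` with σ² = 1) and bound each leftover monomial by the error sum with
Cauchy–Schwarz facts (`entry_sq_le`, `OpB.entry`: |(F³)_uv| ≤ L √(r_u r_v), o² ≤ r_u r_v, D² ≤ r,
AM-GM). The constant C is free: bound term by term with `abs_add`/`abs_mul`, never `nlinarith` on the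
whole thing. All formulas were checked numerically (ratio ≤ 6).

## Drift files (Tr*)
Goal Σ w P(child) ≤ Ω (P + η), child cardinality m-2 (`card_rem'`), Ω = m²(1±ε) (`G4`),
Ωη ≥ K^(μ-0.51) (`ge_Ωη`). For P = Q/T(m): show Σ w Q' ≤ Ω Q·T(m-2)/T(m)·(1+η/2·) + (η/2)ΩT(m-2),
using Q ≤ T; T(m-2) ≥ T(m)/2. Scale ratios: ρ(m-2)/ρ(m) = (m-2)(m+W)/(m(m+W-2)) ≥ 1 - 2W/(m(m+W)) - 8/m²;
note W/(m(m+W)) = Wρ/m² and m - a2 ≥ (1-1/K) Wρ (`a2_le`). An error term is harmless iff its double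
sum is ≤ K^(μ-0.6)·T ("target μ+T"). Use `sum_le_crude` (w ≤ 11/10) for error terms, G5/G6/G6one for
products g_u k_v, G7 (phases II, III) / G8 (phase I) for arrays W_uv of total sum 0
(`Mat.sum_sum_mul`). Take K1 from `exists_const C (1/100)`. Use the `Le`/`Ge` calculus of `Mono`,
split with `cases_W`, `phI_iff`, `phX_iff`, finish exponents by `linarith`. On the support of w:
|f| ≤ 1/K, p ≤ 2/K, hh ≤ K^-20 (Σ_a F_au² F_av²), Loc holds (`loc`). a4 ≤ T4, a4 ≤ a2² ≤ T2²,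
a4 ≤ L² a2, c_a ≤ L² r_a, |(F³)_aa| ≤ √(r c) ≤ L r, Σ|(F³)_aa| ≤ √(a2 a4), ‖F³‖² ≤ L² a4,
‖F⁴‖ ≤ a4 (Frobenius), G8 kernel term: `Mat.kernel` (row sums ≤ R).

### TrT (pT, pT'): `sq_lemma` with k = kt(m), k' = kt(m-2), λ = 2Wρ(1-1/K)m^-2(1-2ε), e = O(1/(Km)).
Z = t - tst(m), Δ = t' - t - (tst(m-2) - tst(m)), tst(m-2) - tst(m) ≥ -γ a/(m(m-2)) (both 0 off phase I).
D_v x_u: t(a2-m) ± (G5) ε m √(TD·X) (X ≤ TX in I, II; `le_X2` in III); t ≥ Z > 0 resp. -t = Z > 0.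
2σ(F²)_uv off I: G7, a2 + Γ√m √a4 (IIIb: a4 ≤ T4 if μ ≥ 6650, a4 ≤ T2² if μ ≤ 6650).
In I: G8 gives -2σ a2 - 2γ io(F)(a3 - ΣD r) + 2γ io(G)(tr(F F G) - ΣG_aa r_a) ± errors,
|tr FFG| ≤ √(a2 c22) ≤ √(m K⁴N) + N K^-70. For pT: io F = 1, a3 ≥ a - k3, and -2γ(a-k3)/Ω + γa/(m(m-2))
+ 2γNK^-70/Ω ≤ 0 (a ≥ N/2); the rest goes in β (β ≤ K^-0.6 kt/m). For pT': io F = 0 when t < 0 and
γ N K^-70 ≤ K^-0.6 kt m as μ > 7195. Σ(F²+G²)_uv o ≤ Σ F_uv²(r_u+r_v)/2+.. ≤ R2 + √(R2 R2^G) ≤ 8m.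
Variance (target μ + 2kt): |Δ| ≲ o + p_vϱ_u + p_uϱ_v + |f|(ϱ_u+ϱ_v) + γa/m²; Σo² = a4 (IIIb: T4 if
μ ≥ 6650, T2² otherwise), Σ f²ϱ_u² ≤ Σ r ϱ² ≤ 2a2 + 2R·R2 (III: R2 ≤ TR and r ≤ √TR if needed).

### Tr2a (p2, p2'): pt2 with G = F, σ' = σ: main = 2x_u x_v - 2 + 4σ(F³)_uv + 2(D_v(F³)_uu + D_u(F³)_vv).
p2: Z = a2 - a2s(m), a2s(m) = m - W + W²/(m+W), a2s(m-2) - a2s(m) ≥ -2 + 2(Wρ)²/m²; m - a2 = Wρ - Z,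
so drift = 2[(Wρ-Z)² - (Wρ)²]/m² ≤ -3(Wρ/m²) Z; need only λ = 2Wρ/m² + O(1/m²). p2': Z = m-4W-a2,
k = k' = W ≥ k2, λ = 0, drift -2(m-a2)²/Ω ≤ 0. Targets: β: μ + k2, variance μ + 2k2. x_u x_v: G5;
(F³)_uv: G7 off I (|a3| ≤ 2KN for μ ≥ 6700, ≤ √(a2 a4) for μ ≤ 6700; ‖F³‖ ≤ L√T4), G8 in I
(γ a4, γ|tr G F³| ≤ γ√(c22 a4) ≤ γ T4 by `c22_sq_le`, kernel term γ²R√(a2 a4) from
|(F³)_uv| ≤ √(r_u c_v); the G² kernel uses c.swap); D_v (F³)_uu: t a3 and G6 (k = D, g = (F³)_uu).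
Errors: Σ p_v|f| r_u ≤ √(P2 a2 R2), Σ|f| r_u r_v ≤ √a2 R2, Σ|f||F³| ≤ √a2 ‖F³‖. Variance by pt2c
(last term Σp⁴·R4).
### Tr2b (p2l = a2/T2, linear): T2(m-2)/T2(m) ≥ 1 - 4/m + 2/(m+W) - 20/m². Σw(r_u+r_v) ≥ 2(1-ε) m a2
(G6one), Σ w r_u r_v ≤ a2² + ε√m√R2 a2 (G6), a2/m² ≤ 1/(m+W) + 1/(Km). For μ ≥ 6700 all other terms
as in Tr2a (T2 ≥ k2). For μ ≤ 6700 (target 3μ - 6699) use relative bounds: |a3| ≤ L a2, ‖F³‖ ≤ L a2,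
a4 ≤ L² a2, R2 ≤ TR.
### Tr2c (p11, phase I): pt2 with σ' = -σ, g_a = (FG)_aa, main = -2(g_u+g_v) - 2 g_u g_v + …;
Z = -c11 ≤ kc = m/K, drift -4Z/m + 2Z²/m², need λ = 2/m + O(1/m²). Targets β: 2μ-1, variance 3μ-2
(huge slack; crude G7 or G8 as in Tr2a, ‖FGF‖ ≤ L√c22, c22 ≤ T4, |tr FGF| ≤ √(a2 T4), g² ≤ r^F r^G).
### Tr3 (p3, p3'): k = k' = k3, λ = 0, targets β: μ + 9999, variance μ + 19998. x_u (F³)_vv: (a2-m) a3 by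
G6 (k = x); p3: a3 > a > 0 so it is ≤ 0; p3': 6(m-a2) a3 ≤ 30 W a. (F⁴)_uv: G7 off I (‖F⁴‖ ≤ T4);
G8 in I (γ L T4, kernel γ² R a4 from |(F⁴)_uv| ≤ √(c_u c_v)). D_v c_u: t a4, G6. Errors:
Σ_v φ p_v ≤ √(R P2), Σφ² ≤ 2a2+2.
### Tr4a (p4 = a4/T4): pt4 with G = F, R = c.R (q = 4c, ro = 1+2r). rem4 = 4(c_u+c_v), quad4 =
4(r_u c_v + r_v c_u) + 4 (F³)_uu (F³)_vv. T4(m-2)/T4(m) ≥ 1 - 4/m + 6/(m+W) - 100/m². Drift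
-8 m a4 + 8 a2 a4 + 4 a3²; a2/m² ≤ 1/(m+W) + 1/(Km). m ≥ W: a3² ≤ 4K²N² ≤ K^-1 m T4; m ≤ W: a3² ≤ a2 a4
and 6/(m+W) ≤ 4/m. G6 for (F³)(F³): Σ(F³_aa)² ≤ Σ r c ≤ a4 + L²√(X R2). Target μ + τ. lin4:
|tr F⁵| ≤ L a4, ‖F⁵‖ ≤ L a4, G7 off I, G8 in I (γ L² a4, kernel γ² R L a4), D_v (F⁵)_uu: t L a4, G6.
err4 term by term with Cauchy–Schwarz: Q = Σq ≤ 4T4, Σ_u φ ϱ_u ≤ √(R P), Σ p√q ≤ √(P2 Q), Σ qϱ ≤ RQ,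
Σ φ √(q_uϱ_u)√ϱ_v ≤ √((a2+R2+2)·m·RQ), R ≥ K^800 for the term ϱ q/R, Σ o2² ≲ T4, Σ o3² ≲ L² T4.
### Tr4c (p22, phase I): as Tr4a with σ' = -σ; T22(m-2) ≥ T22(m); drift -8m c22 + 2(a2+a2') c22
- 4 c21 c12 - 4 c11 c22 ≤ 4 kc c22 (a2 ≤ m, |c21 c12| ≤ m c22 by `c21_sq_le`, c11 ≥ -kc). Target μ + T22,
Q ≤ 4T4 ≤ K^145 T22; traces with FGGF are relative to c22 (|tr F·FGGF| ≤ L c22); signed diagonals via G6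
with Σ|(FFGG)_aa| ≤ Q. Prove the err4 sum once (file Err4.lean) for both Tr4a and Tr4c if you can.
### TrX (pX, phases I, II), TrR (pR, phase III): y_a = r_a - 1 resp. r_a. Σ_{S'} y'² = Σ_S y² - y_u² - y_v²
+ Σ_{a∈S'} (2 y_a Δ_a + Δ_a²), Δ_a = main5 + O(err5); f_u = F a u, Y_u = (F²) a u. Removal gains
2(1-ε) m Σy². Extend Σ_{a∈S'} y main5 to a ∈ S (corrections a = u, v: D²|x_v|, f²|x_u|, |f| r_u, |D_u| o,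
|D_u D_v| r_u, |D_u f| o; use Σ_v|f| ≤ √(m r), Σ_v o ≤ L√(m r), D² ≤ r, D4 ≤ D2² in III, ΣD²r ≤ TD·R).
Per a: f_u² x_v: r_a(a2-m) ± ε√(mX) r_a (G6); TrX: Σ x r (a2-m) ≤ (a2-m)² ≤ 25W², TX(m-2) ≥ TX(m),
target 13403; TrR: cancels TR(m-2)/TR(m) ≥ 1 - 4Wρ/m² - 20/m², target μ + TR. f_v Y_u: total sum 0;
G7 off I (Γ√m√(r c)); G8 in I (γ L√(r c), kernel γ²R√(r c), K^17.5√m√(r c)); Σ|x|√(r c) ≤ 2LX + √(2X T4)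
(split |x| ≤ 1), Σ r√(r c) ≤ L R2. D_v f_u Y_u: (|t| + ε√(m TD))√(r c). err5: Σ_v ph0 ϱ_v ≲ √(R P) +
√(P2 P), Σ ph0² ≲ a2+1+P2², Σ_v pe ≲ 1+√(R P2)+P2, Σ|x| r ≤ √(X R2). Jumps Δ² ≤ (1+δ)(main jump)² + C(rest)²:
Σ_{a,u} f_u⁴ ≤ (9/16) a2, Σ x_v² = X (TrR: ≤ m + R2): 2·1.1·(9/16)(1+δ) < 2 is absorbed by the removal;
cross term via hh ≤ K^-20; (f_v Y_u)²: Σ r c ≤ a4 + L²√(X R2) (III: ≤ L² R2); D_v²f_u²Y_u² ≤ TD·R·R2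
(Y_u² ≤ r_a r_u, kernel); ph0 ≤ 3/K and ϱ_v ≤ 2+|x_v| for err5²; f_u²f_v²o² ≤ hh·o² (I, II), ≤ R² r_a² (III).
### TrR4 (pR4): `four_add_le`, `four_small_le`, `four_pq_le`; target μ + TR4; TR4(m-2)/TR4(m) ≥
1 - 4Wρ/m² - 20/m² is beaten by 8 r⁴(a2-m). Jump: 2·1.1·1.4·1.5·1.5·(3/4)^6 a2 (m + R4) ≤ 1.24 m(m+R4)
< removal 2 m R4 (x⁴ ≤ 1 + r⁴; a2 m ≤ T2 m is small). Σ r³ ≤ √(R2 R4); (f_vY_u)⁴: Σf⁴ ≤ r, ΣY⁴ ≤ r² R2;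
D_v⁴f⁴Y⁴ ≤ D4·R·r⁴; r²f_u²f_v²o² ≤ R² r⁴; p²q² and o⁴ terms via hh (Σo⁴ ≤ R2²); cross terms r³·(as in
TrX with √(r c) ≤ L r).
### TrD2 (pD2): pt6, target μ + TD; TD(m-2)/TD(m) ≥ 1 - 2Wρ/m² - 8/m², removal 2/m, net gain 2ρ/m;
jump 2·1.1·(9/16)(1+δ) a2 D2 with a2 ≤ mρ + m/K; cross via hh; f_u²f_v²: R2 (≤ 4m, or TR in III).
2 D_a Δ: t r_a, G6, f_u f_v by G7 off I (Γ√m r), G8 in I (γ L r, γ² R r, K^17.5√m r), Σ|D| r ≤ √(TD R2).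
### TrD4 (pD4): target μ - 4; removal 2 m D4 against jump 1.24 m D4 (as TrR4 with D); f_u⁴f_v⁴ ≤ hh² ≤
K^-20 hh and Σhh = R2 (`sum_hh`); ΣD²r² ≤ √(D4 R4); ΣD² r ≤ R TD; Σ|D|³ r ≤ R√TD; G7 in all phases.
### TrB: each counted ordered pair dies when u or v hits it (Σ w ≥ 4m(1-ε) - 3); TB(m-2) = TB(m)(1-2/m)²;
new pairs ≤ 2 f_u f_v, f_u = #other free half-edges at vtx u, Σ f_u = same ≤ min(d m, TB/K⁴).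
-/
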